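import Mathlib

/-!
# P042: large sets without cube differences

A set of 117 residues modulo 3367 with no nonzero cube difference, lifted digit by digit.
-/

namespace Vale.Agent.P042

/-- The modulus `7 * 13 * 37`. -/
def modl : ℕ := 3367

/-- The residues. -/
def res : List ℕ :=
  [ 19, 53, 85, 100, 130, 177, 211, 266, 276, 288, 322, 353, 387, 399, 433, 469,
    488, 510, 544, 580, 621, 655, 691, 757, 772, 802, 849, 868, 883, 948, 960, 991,
    994, 1025, 1059, 1071, 1090, 1102, 1105, 1182, 1201, 1216, 1252, 1293, 1327, 1429, 1451, 1521,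
    1540, 1562, 1598, 1627, 1632, 1651, 1663, 1697, 1743, 1762, 1774, 1820, 1854, 1873, 1946, 1965,
    2042, 2057, 2123, 2168, 2188, 2193, 2222, 2234, 2265, 2270, 2299, 2304, 2333, 2335, 2345, 2369,
    2376, 2381, 2415, 2446, 2456, 2492, 2526, 2567, 2603, 2637, 2703, 2714, 2739, 2748, 2795, 2850,
    2906, 2937, 2942, 2961, 2971, 3017, 3048, 3053, 3072, 3087, 3128, 3152, 3164, 3183, 3198, 3239,
    3275, 3294, 3309, 3341, 3350 ]

/-- Bit `v` is set exactly when `v` is a cube modulo `modl`. -/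
def cubeMask : ℕ :=
  186379332641551209329815455317490151633263891427563099520492081473236154272553439433332876250449679584737800435180773807091297006822207061719025745376027313556001473960087156098026212952974191501959101692566751310402988663694087481037009445988749972327003212269044492610328683546577376320926398240494087256067192578025752199964111602754088386922514993798667327483814186117851559752861265558449568573973739659307922594464984106605348363520790755820366647347186118502661248725715475469370109716474578512932064000422717054210757650710694077328727671073102082948763200227414739068856383659499384899786022715515347434564105488859799943908856236631311644524690836388490827056402302265550491703293116283181261345107300772803643284208219620266927605005326460134360996991389621475539677181060985778868583428023612008741468881831748226742609130127021118162137021827142331202474164123860032450945966148867527223932845859690492884327798267697276333039549200444253358201754963151141381044146628184141162197208193978942533681411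

lemma cert_cubes : (List.range modl).all (fun y => cubeMask.testBit (y ^ 3 % modl)) = true := by
  decide +kernel

lemma cert_diff : res.all (fun r => res.all fun s =>
    r == s || !(cubeMask.testBit ((r + modl - s) % modl))) = true := by
  decide +kernel

lemma cert_rad : (List.range modl).all (fun y => y == 0 || !(y ^ 3 % modl == 0)) = true := by
  decide +kernel

lemma cert_lt : res.all (fun r => decide (r < modl)) = true := by
  decide +kernel

lemma cert_card : res.toFinset.card = 117 := by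
  decide +kernel

attribute [local irreducible] modl res cubeMask

lemma res_lt {r : ℕ} (h : r ∈ res) : r < modl := by
  simpa using List.all_eq_true.1 cert_lt r h

lemma exists_small (y : ℤ) : ∃ z : ℕ, z < modl ∧ (z : ZMod modl) = (y : ZMod modl) :=
  have : NeZero modl := ⟨by norm_num [modl]⟩
  ⟨(y : ZMod modl).val, ZMod.val_lt _, ZMod.natCast_zmod_val _⟩

lemma dvd_of_dvd_cube {y : ℤ} (h : (modl : ℤ) ∣ y ^ 3) : (modl : ℤ) ∣ y := by
  obtain ⟨z, hz, hzy⟩ := exists_small y
  have h1 : ((z ^ 3 : ℕ) : ZMod modl) = 0 := by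
    rw [Nat.cast_pow, hzy, ← Int.cast_pow, ZMod.intCast_zmod_eq_zero_iff_dvd]
    exact h
  rw [ZMod.natCast_eq_zero_iff] at h1
  have h2 := List.all_eq_true.1 cert_rad z (List.mem_range.2 hz)
  have h3 : z ^ 3 % modl = 0 := Nat.mod_eq_zero_of_dvd h1
  rw [h3] at h2
  simp at h2
  rw [← ZMod.intCast_zmod_eq_zero_iff_dvd, ← hzy, h2, Nat.cast_zero]

/-- The admissible digits in base `modl ^ 3`. -/
def digits : Finset ℕ :=
  (res.toFinset ×ˢ Finset.range (modl ^ 2)).image fun p => p.1 + modl * p.2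

lemma digits_lt {d : ℕ} (h : d ∈ digits) : d < modl ^ 3 := by
  simp only [digits, Finset.mem_image, Finset.mem_product, List.mem_toFinset, Finset.mem_range] at h
  obtain ⟨⟨r, t⟩, ⟨hr, ht⟩, rfl⟩ := h
  have h1 := res_lt hr
  simp only at *
  calc r + modl * t < modl + modl * t := by omega
    _ = modl * (t + 1) := by ring
    _ ≤ modl * modl ^ 2 := Nat.mul_le_mul_left _ ht
    _ = modl ^ 3 := by ring

lemma digits_card : digits.card = 117 * modl ^ 2 := by
  rw [digits, Finset.card_image_of_injOn, Finset.card_product, cert_card, Finset.card_range]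
  rintro ⟨r, t⟩ hp ⟨r', t'⟩ hq h
  simp only [Finset.coe_product, Set.mem_prod, Finset.mem_coe, List.mem_toFinset] at hp hq h
  have h1 := res_lt hp.1
  have h2 := res_lt hq.1
  have e : r = r' := by
    have := congrArg (· % modl) h
    simpa [Nat.add_mul_mod_self_left, Nat.mod_eq_of_lt h1, Nat.mod_eq_of_lt h2] using this
  subst e
  have : t = t' := Nat.eq_of_mul_eq_mul_left (by norm_num [modl]) (Nat.add_left_cancel h)
  rw [this]

/-- Two digits never differ by a cube modulo `modl ^ 3`. -/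
lemma digit_eq {d d' : ℕ} (hd : d ∈ digits) (hd' : d' ∈ digits) {y : ℤ}
    (h : ((modl ^ 3 : ℕ) : ℤ) ∣ (d : ℤ) - d' - y ^ 3) : d = d' := by
  simp only [digits, Finset.mem_image, Finset.mem_product, List.mem_toFinset, Finset.mem_range]
    at hd hd'
  obtain ⟨⟨r, t⟩, ⟨hr, ht⟩, rfl⟩ := hd
  obtain ⟨⟨r', t'⟩, ⟨hr', ht'⟩, rfl⟩ := hd'
  simp only at *
  push_cast at h
  have h1 := res_lt hr
  have h2 := res_lt hr'
  have hm : ((modl : ℕ) : ℤ) ∣ ((r : ℤ) - r' - y ^ 3) := by
    have := dvd_trans (dvd_pow_self (modl : ℤ) (by norm_num : (3 : ℕ) ≠ 0)) h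
    have h' := dvd_sub this (Dvd.intro ((t : ℤ) - t') rfl)
    have e : (r : ℤ) + modl * t - (r' + modl * t') - y ^ 3 - modl * ((t : ℤ) - t') =
        r - r' - y ^ 3 := by ring
    rwa [e] at h'
  have hrr : r = r' := by
    obtain ⟨z, hz, hzy⟩ := exists_small y
    have h3 : ((z ^ 3 : ℕ) : ZMod modl) = ((r + modl - r' : ℕ) : ZMod modl) := by
      rw [← ZMod.intCast_zmod_eq_zero_iff_dvd] at hm
      push_cast at hm
      rw [Nat.cast_pow, hzy, Nat.cast_sub (by omega), Nat.cast_add, ZMod.natCast_self, add_zero]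
      exact (sub_eq_zero.1 hm).symm
    rw [ZMod.natCast_eq_natCast_iff'] at h3
    have h4 := List.all_eq_true.1 cert_cubes z (List.mem_range.2 hz)
    have h5 := List.all_eq_true.1 (List.all_eq_true.1 cert_diff r hr) r' hr'
    rw [h3] at h4
    simpa [h4] using h5
  subst hrr
  have hy : (modl : ℤ) ∣ y := by
    refine dvd_of_dvd_cube ?_
    have := hm.neg_right
    simpa using this
  obtain ⟨w, rfl⟩ := hy
  have h6 : (modl : ℤ) * (modl : ℤ) ^ 2 ∣ (modl : ℤ) * ((t : ℤ) - t') := by
    have h' := dvd_add h (Dvd.intro (w ^ 3) rfl : (modl : ℤ) ^ 3 ∣ (modl : ℤ) ^ 3 * w ^ 3)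
    have e : (r : ℤ) + modl * t - (r + modl * t') - ((modl : ℤ) * w) ^ 3 +
        (modl : ℤ) ^ 3 * w ^ 3 = modl * ((t : ℤ) - t') := by ring
    rw [e, pow_succ'] at h'
    exact h'
  have h7 := Int.eq_zero_of_abs_lt_dvd
    ((mul_dvd_mul_iff_left (by norm_num [modl] : (modl : ℤ) ≠ 0)).1 h6) (by
      have a : (t : ℤ) < (modl : ℤ) ^ 2 := by exact_mod_cast ht
      have b : (t' : ℤ) < (modl : ℤ) ^ 2 := by exact_mod_cast ht'
      rw [abs_lt]; constructor <;> omega)
  have : t = t' := by omega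
  rw [this]

attribute [local irreducible] digits

/-- Numbers with `n` digits, all admissible. -/
def cubeFree : ℕ → Finset ℕ
  | 0 => {0}
  | n + 1 => (digits ×ˢ cubeFree n).image fun p => p.1 + modl ^ 3 * p.2

lemma cubeFree_lt : ∀ n, ∀ a ∈ cubeFree n, a < (modl ^ 3) ^ n
  | 0, a, h => by simp [cubeFree] at h; simp [h]
  | n + 1, a, h => by
    simp only [cubeFree, Finset.mem_image, Finset.mem_product] at h
    obtain ⟨⟨d, b⟩, ⟨hd, hb⟩, rfl⟩ := h
    have h1 := digits_lt hd
    have h2 := cubeFree_lt n b hb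
    simp only
    calc d + modl ^ 3 * b < modl ^ 3 + modl ^ 3 * b := by omega
      _ = modl ^ 3 * (b + 1) := by ring
      _ ≤ modl ^ 3 * (modl ^ 3) ^ n := Nat.mul_le_mul_left _ h2
      _ = (modl ^ 3) ^ (n + 1) := by ring

lemma cubeFree_card : ∀ n, (cubeFree n).card = (117 * modl ^ 2) ^ n
  | 0 => rfl
  | n + 1 => by
    rw [cubeFree, Finset.card_image_of_injOn, Finset.card_product, digits_card, cubeFree_card n]
    · rw [pow_succ' (117 * modl ^ 2) n]
    rintro ⟨d, b⟩ hp ⟨d', b'⟩ hq h
    simp only [Finset.coe_product, Set.mem_prod, Finset.mem_coe] at hp hq h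
    have h1 := digits_lt hp.1
    have h2 := digits_lt hq.1
    have e : d = d' := by
      have := congrArg (· % modl ^ 3) h
      simpa [Nat.add_mul_mod_self_left, Nat.mod_eq_of_lt h1, Nat.mod_eq_of_lt h2] using this
    subst e
    have : b = b' := Nat.eq_of_mul_eq_mul_left (by norm_num [modl]) (Nat.add_left_cancel h)
    rw [this]

theorem cubeFree_eq : ∀ n, ∀ a ∈ cubeFree n, ∀ b ∈ cubeFree n, ∀ y : ℤ,
    (a : ℤ) - b = y ^ 3 → a = b
  | 0, a, ha, b, hb, _, _ => by simp [cubeFree] at ha hb; omega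
  | n + 1, a, ha, b, hb, y, h => by
    simp only [cubeFree, Finset.mem_image, Finset.mem_product] at ha hb
    obtain ⟨⟨d, a'⟩, ⟨hd, ha'⟩, rfl⟩ := ha
    obtain ⟨⟨d', b'⟩, ⟨hd', hb'⟩, rfl⟩ := hb
    simp only at *
    push_cast at h
    have hdd : d = d' := digit_eq hd hd' (y := y) ⟨(b' : ℤ) - a', by push_cast; linarith⟩
    subst hdd
    have hy : (modl : ℤ) ∣ y :=
      dvd_of_dvd_cube ⟨(modl : ℤ) ^ 2 * ((a' : ℤ) - b'), by linarith⟩
    obtain ⟨w, rfl⟩ := hy
    have h' : (a' : ℤ) - b' = w ^ 3 := by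
      refine mul_left_cancel₀ (pow_ne_zero 3 (by norm_num [modl] : (modl : ℤ) ≠ 0)) ?_
      linarith [mul_pow (modl : ℤ) w 3]
    rw [cubeFree_eq n a' ha' b' hb' w h']

/-- The exponent. -/
lemma base_rpow : ((modl ^ 3 : ℕ) : ℝ) ^ (2 / 3 + Real.log 117 / (3 * Real.log 3367)) =
    ((117 * modl ^ 2 : ℕ) : ℝ) := by
  have hl : Real.log 3367 ≠ 0 := (Real.log_pos (by norm_num)).ne'
  have h : ((3367 : ℝ) ^ 3) ^ (2 / 3 + Real.log 117 / (3 * Real.log 3367)) = 117 * 3367 ^ 2 := by
    rw [Real.rpow_def_of_pos (by norm_num), Real.log_pow]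
    rw [show ((3 : ℕ) : ℝ) * Real.log 3367 * (2 / 3 + Real.log 117 / (3 * Real.log 3367)) =
      2 * Real.log 3367 + Real.log 117 by push_cast; field_simp]
    rw [Real.exp_add, show (2 : ℝ) * Real.log 3367 = ((2 : ℕ) : ℝ) * Real.log 3367 by norm_num,
      Real.exp_nat_mul, Real.exp_log (by norm_num), Real.exp_log (by norm_num)]
    ring
  rw [Nat.cast_pow, Nat.cast_mul, Nat.cast_pow]
  simp only [modl, Nat.cast_ofNat]
  exact h

lemma exponent_bounds :
    (25 : ℝ) / 29 < 2 / 3 + Real.log 117 / (3 * Real.log 3367) ∧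
      2 / 3 + Real.log 14 / (3 * Real.log 91) < (25 : ℝ) / 29 := by
  have h1 : Real.log ((3367 : ℝ) ^ 17) < Real.log ((117 : ℝ) ^ 29) :=
    Real.log_lt_log (by norm_num) (by norm_num)
  have h2 : Real.log ((14 : ℝ) ^ 29) < Real.log ((91 : ℝ) ^ 17) :=
    Real.log_lt_log (by norm_num) (by norm_num)
  rw [Real.log_pow, Real.log_pow] at h1 h2
  push_cast at h1 h2
  have p1 : (0 : ℝ) < Real.log 3367 := Real.log_pos (by norm_num)
  have p2 : (0 : ℝ) < Real.log 91 := Real.log_pos (by norm_num)
  constructor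
  · have : (17 : ℝ) / 87 < Real.log 117 / (3 * Real.log 3367) := by
      rw [div_lt_div_iff₀ (by norm_num) (by positivity)]; linarith
    linarith
  · have : Real.log 14 / (3 * Real.log 91) < (17 : ℝ) / 87 := by
      rw [div_lt_div_iff₀ (by positivity) (by norm_num)]; linarith
    linarith

theorem cube_difference_free :
    ((25 : ℝ) / 29 < 2 / 3 + Real.log 117 / (3 * Real.log 3367) ∧
      2 / 3 + Real.log 14 / (3 * Real.log 91) < (25 : ℝ) / 29) ∧
    ∀ c : ℕ, 0 < c → ∃ C : ℝ, 0 < C ∧ ∀ N : ℕ, 1 ≤ N →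
      ∃ A ⊆ Finset.Icc 1 N, C * (N : ℝ) ^ (2 / 3 + Real.log 117 / (3 * Real.log 3367)) ≤ A.card ∧
        ∀ a ∈ A, ∀ b ∈ A, a ≠ b → ∀ y : ℤ, (a : ℤ) - b ≠ c * y ^ 3 := by
  refine ⟨exponent_bounds, fun c hc => ?_⟩
  set γ := 2 / 3 + Real.log 117 / (3 * Real.log 3367) with hγ
  have hγ0 : 0 ≤ γ := by rw [hγ]; linarith [exponent_bounds.1]
  have hc' : (0 : ℝ) < c := by exact_mod_cast hc
  have hD : (0 : ℝ) < ((117 * modl ^ 2 : ℕ) : ℝ) := by norm_num [modl]
  refine ⟨1 / ((c : ℝ) ^ γ * ((117 * modl ^ 2 : ℕ) : ℝ)),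
    div_pos one_pos (mul_pos (Real.rpow_pos_of_pos hc' _) hD), fun N hN => ?_⟩
  set n := Nat.log (modl ^ 3) (N / c) with hn
  refine ⟨(cubeFree n).image fun x => c * x + 1, ?_, ?_, ?_⟩
  · intro z hz
    simp only [Finset.mem_image] at hz
    obtain ⟨x, hx, rfl⟩ := hz
    rw [Finset.mem_Icc]
    refine ⟨by omega, ?_⟩
    have h1 := cubeFree_lt n x hx
    rcases Nat.eq_zero_or_pos (N / c) with h | h
    · have : n = 0 := by rw [hn, h, Nat.log_zero_right]
      rw [this, pow_zero] at h1
      have : x = 0 := by omega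
      simp [this]; omega
    · have h2 : (modl ^ 3) ^ n ≤ N / c := Nat.pow_log_le_self _ (by omega)
      have h3 : c * (x + 1) ≤ N :=
        (Nat.mul_le_mul_left c (le_trans h1 h2)).trans (Nat.mul_div_le N c)
      rw [mul_add, mul_one] at h3
      omega
  · rw [Finset.card_image_of_injective _ (fun x y h => by
      simpa [hc.ne'] using h), cubeFree_card, Nat.cast_pow]
    have hlt : N / c < (modl ^ 3) ^ (n + 1) :=
      Nat.lt_pow_succ_log_self (by norm_num [modl]) _
    have hN' : (N : ℝ) ≤ c * (((modl ^ 3 : ℕ) : ℝ)) ^ (n + 1) := by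
      exact_mod_cast ((Nat.div_lt_iff_lt_mul hc).1 hlt).le.trans (le_of_eq (mul_comm _ _))
    have key : (N : ℝ) ^ γ ≤ (c : ℝ) ^ γ * ((117 * modl ^ 2 : ℕ) : ℝ) ^ (n + 1) := by
      refine (Real.rpow_le_rpow (Nat.cast_nonneg _) hN' hγ0).trans (le_of_eq ?_)
      rw [Real.mul_rpow hc'.le (by positivity), ← Real.rpow_pow_comm (Nat.cast_nonneg _), hγ,
        base_rpow]
    calc 1 / ((c : ℝ) ^ γ * ((117 * modl ^ 2 : ℕ) : ℝ)) * (N : ℝ) ^ γ
        ≤ 1 / ((c : ℝ) ^ γ * ((117 * modl ^ 2 : ℕ) : ℝ)) *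
            ((c : ℝ) ^ γ * ((117 * modl ^ 2 : ℕ) : ℝ) ^ (n + 1)) := by
          gcongr
      _ = _ := by
          have := (Real.rpow_pos_of_pos hc' γ).ne'
          field_simp
          ring
  · intro a ha b hb hab y h
    simp only [Finset.mem_image] at ha hb
    obtain ⟨x, hx, rfl⟩ := ha
    obtain ⟨z, hz, rfl⟩ := hb
    push_cast at h
    have : (x : ℤ) - z = y ^ 3 := by
      refine mul_left_cancel₀ (show (c : ℤ) ≠ 0 by exact_mod_cast hc.ne') ?_
      linarith
    exact hab (by rw [cubeFree_eq n x hx z hz y this])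

end Vale.Agent.P042
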